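import Vale.Agent.P011UF2.Defs
import Mathlib.LinearAlgebra.Matrix.Rank

/-!
The action of the Galois group on the idempotents.
-/

set_option autoImplicit false
set_option linter.all false

namespace Vale.Agent.P011UF2B

open Matrix Vale.Agent.P011LD Vale.Agent.P011LE Vale.Agent.P011UF2

variable {k K : Type} [Field k] [Field K] [Algebra k K] {n : Type} [Fintype n] [DecidableEq n]

/-- two idempotents with the same image -/
def Si (E F : Matrix n n K) : Prop := E * F = F ∧ F * E = E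

section

variable {E F G : Matrix n n K}

theorem Si.symm (h : Si E F) : Si F E := ⟨h.2, h.1⟩

theorem Si.trans (h : Si E F) (h' : Si F G) : Si E G :=
  ⟨by rw [← h'.1, ← Matrix.mul_assoc, h.1], by rw [← h.2, ← Matrix.mul_assoc, h'.2]⟩

theorem Si.idem (h : Si E F) : E * E = E := by
  nth_rw 2 [← h.2]
  rw [← Matrix.mul_assoc, h.1, h.2]

theorem Si.rank (h : Si E F) : E.rank = F.rank :=
  le_antisymm (h.2 ▸ rank_mul_le_left F E) (h.1 ▸ rank_mul_le_left E F)

theorem mem_im (h : E * E = E) {v : n → K} : v ∈ LinearMap.range E.mulVecLin ↔ E *ᵥ v = v :=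
  ⟨by rintro ⟨w, rfl⟩; simp [h], fun e => ⟨v, e⟩⟩

theorem mul_of_le (h : E * E = E) (l : LinearMap.range F.mulVecLin ≤ LinearMap.range E.mulVecLin) :
    E * F = F := mulVec_injective (funext fun v => by
  rw [← mulVec_mulVec]
  exact (mem_im h).1 (l ⟨v, rfl⟩))

theorem si_of_rank (hF : F * F = F) (h : E * F = F) (r : E.rank = F.rank) : Si E F := by
  refine ⟨h, mul_of_le hF (Submodule.eq_of_le_of_finrank_eq ?_ r.symm).ge⟩
  rintro _ ⟨v, rfl⟩
  exact ⟨F *ᵥ v, by simp [h]⟩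

theorem rank_compl (h : E * E = E) : E.rank + (1 - E).rank = Fintype.card n := by
  have e : LinearMap.range (1 - E).mulVecLin = LinearMap.ker E.mulVecLin := by
    ext v
    rw [mem_im (by simp [Matrix.mul_sub, Matrix.sub_mul, h])]
    simp [sub_mulVec]
  rw [Matrix.rank, Matrix.rank, e, LinearMap.finrank_range_add_finrank_ker]
  simp

theorem rank_conj (A : GL n K) (E : Matrix n n K) : (A.1 * E * A⁻¹.1).rank = E.rank := by
  rw [rank_mul_eq_left_of_isUnit_det _ _ ((isUnit_iff_isUnit_det _).1 A⁻¹.isUnit),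
    rank_mul_eq_right_of_isUnit_det _ _ ((isUnit_iff_isUnit_det _).1 A.isUnit)]

theorem rank_map (σ : K ≃ₐ[k] K) (E : Matrix n n K) : (E.map σ).rank = E.rank := by
  obtain ⟨V, U, e, hV, hU, h⟩ := exists_rank_normal_form E
  have k1 : ∀ V U X : Matrix n n K, IsUnit V → IsUnit U → (V * X * U).rank = X.rank :=
    fun V U X a b => by
      rw [rank_mul_eq_left_of_isUnit_det _ _ ((isUnit_iff_isUnit_det _).1 b),
        rank_mul_eq_right_of_isUnit_det _ _ ((isUnit_iff_isUnit_det _).1 a)]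
  rw [← k1 _ _ _ (hV.map (σ : K →+* K).mapMatrix) (hU.map (σ : K →+* K).mapMatrix),
    ← k1 _ _ E hV hU]
  congr 1
  change V.map σ * E.map σ * U.map σ = _
  rw [← map_mul', ← map_mul', h, ← submatrix_map, fromBlocks_map, map_one']
  simp

theorem conj_smul {A B : GL n K} {z : K} (h : A.1 = z • B.1) (X : Matrix n n K) :
    A.1 * X * A⁻¹.1 = B.1 * X * B⁻¹.1 := by
  rw [← Units.mul_left_inj A, Units.inv_mul_cancel_right]
  simp only [h, Matrix.mul_smul, Matrix.smul_mul, Units.inv_mul_cancel_right]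

end

variable (o : (K ≃ₐ[k] K) →* ℤˣ) (M : (K ≃ₐ[k] K) → GL n K)

/-- the semilinear action on the matrices -/
def cj (σ : K ≃ₐ[k] K) (E : Matrix n n K) : Matrix n n K :=
  (M σ).1 * (if o σ = 1 then E.map σ else (E.map σ)ᵀ) * (M σ)⁻¹.1

variable {o M} {σ τ : K ≃ₐ[k] K} {κ : (K ≃ₐ[k] K) → K} {E F : Matrix n n K}

theorem ac_in (h : o σ = 1) (E : Matrix n n K) : ac o M σ E = cj o M σ E := by simp [ac, cj, h]

theorem ac_out (h : o σ ≠ 1) (E : Matrix n n K) : ac o M σ E = 1 - cj o M σ E := by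
  simp [ac, cj, h]

theorem cj_add (E F : Matrix n n K) : cj o M σ (E + F) = cj o M σ E + cj o M σ F := by
  unfold cj
  split_ifs <;> simp [Matrix.map_add _ (map_add σ), Matrix.mul_add, Matrix.add_mul]

theorem cj_sub (E F : Matrix n n K) : cj o M σ (E - F) = cj o M σ E - cj o M σ F :=
  map_sub (AddMonoidHom.mk' (cj o M σ) cj_add) E F

theorem cj_smul (c : K) (E : Matrix n n K) : cj o M σ (c • E) = σ c • cj o M σ E := by
  unfold cj
  split_ifs <;> simp [P011LD.map_smul']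

theorem cj_one : cj o M σ 1 = 1 := by
  unfold cj
  split_ifs <;> simp [map_one']

theorem cj_in (h : o σ = 1) (E F : Matrix n n K) :
    cj o M σ (E * F) = cj o M σ E * cj o M σ F := by
  simp [cj, h, map_mul', Matrix.mul_assoc]

theorem cj_out (h : o σ ≠ 1) (E F : Matrix n n K) :
    cj o M σ (E * F) = cj o M σ F * cj o M σ E := by
  simp [cj, h, map_mul', Matrix.mul_assoc]

theorem cj_rank (E : Matrix n n K) : (cj o M σ E).rank = E.rank := by
  rw [cj, rank_conj]
  split_ifs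
  · exact rank_map σ E
  · rw [rank_transpose, rank_map]

theorem o_mul : o (σ * τ) = 1 ↔ (o σ = 1 ↔ o τ = 1) := by
  rw [map_mul]
  rcases Int.units_eq_one_or (o σ) with a | a <;> rcases Int.units_eq_one_or (o τ) with b | b <;>
    simp [a, b]

theorem cj_cj (h : MD o M κ) (σ τ : K ≃ₐ[k] K) (E : Matrix n n K) :
    cj o M (σ * τ) E = cj o M σ (cj o M τ E) := by
  obtain ⟨z, hz, -⟩ := h.mul σ τ
  rw [cj, ← conj_smul hz, _root_.mul_inv_rev, Units.val_mul, Units.val_mul]
  have e : E.map (σ * τ) = (E.map τ).map σ := rfl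
  by_cases a : o σ = 1
  · have s1 : (st o σ (M τ)).1 = (M τ).1.map σ := by rw [st, if_pos a]; rfl
    have s2 : (st o σ (M τ))⁻¹.1 = (M τ)⁻¹.1.map σ := by rw [st, if_pos a]; rfl
    rw [s1, s2]
    by_cases b : o τ = 1 <;>
      simp only [cj, a, b, o_mul, if_true, if_false, iff_true, true_iff, map_mul', e,
        Matrix.mul_assoc, transpose_map]
  · have s1 : (st o σ (M τ)).1 = ((M τ)⁻¹.1.map σ)ᵀ := by rw [st, if_neg a]; rfl
    have s2 : (st o σ (M τ))⁻¹.1 = ((M τ).1.map σ)ᵀ := by rw [st, if_neg a]; rfl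
    rw [s1, s2]
    by_cases b : o τ = 1 <;>
      simp only [cj, a, b, o_mul, if_true, if_false, iff_true, iff_false, not_false_eq_true,
        map_mul', e, Matrix.mul_assoc, transpose_map, transpose_mul, transpose_transpose]

theorem ac_ac (h : MD o M κ) (σ τ : K ≃ₐ[k] K) (E : Matrix n n K) :
    ac o M (σ * τ) E = ac o M σ (ac o M τ E) := by
  by_cases a : o σ = 1 <;> by_cases b : o τ = 1
  · rw [ac_in (o_mul.2 (by simp [a, b])), ac_in a, ac_in b, cj_cj h]
  · rw [ac_out (mt o_mul.1 (by simp [a, b])), ac_in a, ac_out b, cj_cj h, cj_sub, cj_one]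
  · rw [ac_out (mt o_mul.1 (by simp [a, b])), ac_out a, ac_in b, cj_cj h]
  · rw [ac_in (o_mul.2 (by simp [a, b])), ac_out a, ac_out b, cj_cj h, cj_sub, cj_one,
      sub_sub_cancel]

theorem ac_compl (E : Matrix n n K) : ac o M σ (1 - E) = 1 - ac o M σ E := by
  by_cases a : o σ = 1
  · rw [ac_in a, ac_in a, cj_sub, cj_one]
  · rw [ac_out a, ac_out a, cj_sub, cj_one]

theorem Si.ac (h : Si E F) : Si (ac o M σ E) (ac o M σ F) := by
  by_cases a : o σ = 1
  · rw [ac_in a, ac_in a]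
    exact ⟨by rw [← cj_in a, h.1], by rw [← cj_in a, h.2]⟩
  · rw [ac_out a, ac_out a]
    constructor <;> simp only [Matrix.mul_sub, Matrix.sub_mul, Matrix.one_mul, Matrix.mul_one,
      ← cj_out a, h.1, h.2] <;> abel

theorem ac_idem (h : E * E = E) : ac o M σ E * ac o M σ E = ac o M σ E :=
  (Si.ac (o := o) (M := M) (σ := σ) ⟨h, h⟩).1

theorem ac_rank (hn : Fintype.card n = 6) (h : E * E = E) (r : E.rank = 3) :
    (ac o M σ E).rank = 3 := by
  by_cases a : o σ = 1
  · rw [ac_in a, cj_rank, r]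
  · have := rank_compl (E := cj o M σ E) (by rw [← cj_out a, h])
    rw [cj_rank] at this
    rw [ac_out a]
    omega

/-- a rational idempotent with a given stable image -/
theorem fix_id [Algebra.IsAlgebraic k K] (h : MD o M κ) {Γ : Subgroup (K ≃ₐ[k] K)}
    (hE : ∀ σ ∈ Γ, Si (ac o M σ E) E) : ∃ F, Si F E ∧ ∀ σ ∈ Γ, ac o M σ F = F := by
  let b : (K ≃ₐ[k] K) → Matrix n n K × K → Matrix n n K × K := fun σ x =>
    (if o σ = 1 then cj o M σ x.1 else σ x.2 • 1 - cj o M σ x.1, σ x.2)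
  have sl : Sl Γ b := by
    refine ⟨fun σ _ v w => Prod.ext ?_ (map_add σ _ _), fun σ _ c v => Prod.ext ?_ (map_mul σ _ _),
      fun σ _ τ _ v => Prod.ext ?_ rfl, fun v => ?_⟩
    · simp only [b, Prod.fst_add, Prod.snd_add, cj_add, map_add, add_smul]
      split_ifs <;> abel
    · simp only [b, Prod.smul_fst, Prod.smul_snd, cj_smul, smul_eq_mul, map_mul, mul_smul]
      split_ifs <;> simp only [smul_sub]
    · by_cases a : o σ = 1 <;> by_cases c : o τ = 1 <;>
        simp [-map_mul, b, o_mul, a, c, cj_cj h, cj_sub, cj_smul, cj_one]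
    · obtain ⟨S, hS⟩ := h.cont.and ((Op.mat ⊤ v.1).and (Op.fix ⊤ v.2))
      refine ⟨S, fun σ _ e => ?_⟩
      obtain ⟨⟨a1, a2, -⟩, a3, a4⟩ := hS σ trivial e
      exact Prod.ext (by simp [b, cj, a1, a2, a3]) a4
  let W : Submodule K (Matrix n n K × K) :=
    { carrier := {x | E * x.1 = x.1 ∧ x.1 * E = x.2 • E}
      add_mem' := fun a b => ⟨by rw [Prod.fst_add, Matrix.mul_add, a.1, b.1], by
        rw [Prod.fst_add, Matrix.add_mul, a.2, b.2, Prod.snd_add, add_smul]⟩
      zero_mem' := ⟨by simp, by simp⟩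
      smul_mem' := fun c x a => ⟨by rw [Prod.smul_fst, Matrix.mul_smul, a.1], by
        rw [Prod.smul_fst, Matrix.smul_mul, a.2, Prod.smul_snd, smul_eq_mul, mul_smul]⟩ }
  have hW : ∀ σ ∈ Γ, ∀ w ∈ W, b σ w ∈ W := fun σ s w hw => by
    obtain ⟨g1, g2⟩ := hE σ s
    have key : ac o M σ E * (b σ w).1 = (b σ w).1 ∧
        (b σ w).1 * ac o M σ E = σ w.2 • ac o M σ E := by
      by_cases a : o σ = 1
      · simp only [b, if_pos a, ac_in a, ← cj_in a, hw.1, hw.2, cj_smul, and_self]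
      · simp only [b, if_neg a, ac_out a, Matrix.mul_sub, Matrix.sub_mul, Matrix.one_mul,
          Matrix.mul_one, Matrix.mul_smul, Matrix.smul_mul, ← cj_out a, hw.1, hw.2, cj_smul,
          smul_sub]
        constructor <;> abel
    exact ⟨by rw [← key.1, ← Matrix.mul_assoc, g2], by
      rw [← g1, ← Matrix.mul_assoc, key.2, Matrix.smul_mul, g1]⟩
  obtain ⟨x, ⟨x1, x2⟩, x0⟩ : ∃ x ∈ Fx Γ b ∩ W, x.2 ≠ 0 := by
    by_contra hc
    push Not at hc
    have := (Submodule.span_le (p := LinearMap.ker (LinearMap.snd K _ K))).2 hc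
      (sl.mem_span W hW (v := (E, 1)) ⟨(hE 1 Γ.one_mem).symm.idem, by
        rw [one_smul]; exact (hE 1 Γ.one_mem).symm.idem⟩)
    exact one_ne_zero (α := K) this
  refine ⟨x.2⁻¹ • x.1, ⟨by rw [Matrix.smul_mul, x2.2, inv_smul_smul₀ x0], by
    rw [Matrix.mul_smul, x2.1]⟩, fun σ s => ?_⟩
  have a1 := congrArg Prod.fst (x1 σ s)
  have a2 : σ x.2 = x.2 := congrArg Prod.snd (x1 σ s)
  by_cases a : o σ = 1
  · simp only [b, if_pos a] at a1
    rw [ac_in a, cj_smul, map_inv₀, a2, a1]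
  · simp only [b, if_neg a, a2] at a1
    rw [ac_out a, cj_smul, map_inv₀, a2]
    nth_rw 2 [← a1]
    rw [smul_sub, inv_smul_smul₀ x0]

theorem in_vec (a : o σ = 1) {v : n → K} (h : E *ᵥ v = v) :
    ac o M σ E *ᵥ (M σ).1 *ᵥ (σ ∘ v) = (M σ).1 *ᵥ (σ ∘ v) := by
  rw [ac_in a, cj, if_pos a, mulVec_mulVec, Units.inv_mul_cancel_right, ← mulVec_mulVec]
  congr 1
  nth_rw 2 [← h]
  exact funext fun i => (RingHom.map_mulVec (σ : K →+* K) E v i).symm

/-- the projection which belongs to two complementary subspaces -/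
theorem pair (hn : Fintype.card n = 6) {ε : (K ≃ₐ[k] K) →* ℤˣ} (rE : E.rank = 3) (rF : F.rank = 3)
    (iE : E * E = E) (iF : F * F = F) (hs : ¬Si F E)
    (h1 : ∀ σ, ε σ = 1 → Si (ac o M σ E) E ∧ Si (ac o M σ F) F)
    (h2 : ∀ σ, ε σ ≠ 1 → Si (ac o M σ E) F ∧ Si (ac o M σ F) E)
    (rk : ∀ U : Submodule K (n → K), (∀ σ, o σ = 1 → ∀ v ∈ U, (M σ).1 *ᵥ (σ ∘ v) ∈ U) →
      U = ⊥ ∨ U = ⊤ ∨ Module.finrank K U = 3) : ∃ P, Id3 o M ε P := by
  have tr : ∀ {A B : Matrix n n K} {v : n → K}, Si A B → A *ᵥ v = v → B *ᵥ v = v :=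
    fun {A B v} a b => by rw [← b, mulVec_mulVec, a.2]
  have dj : LinearMap.range E.mulVecLin ⊓ LinearMap.range F.mulVecLin = ⊥ := by
    have fin := Submodule.finrank_mono
      (inf_le_left (a := LinearMap.range E.mulVecLin) (b := LinearMap.range F.mulVecLin))
    have st := rk (LinearMap.range E.mulVecLin ⊓ LinearMap.range F.mulVecLin) fun σ a v hv => by
      have b := in_vec (M := M) a ((mem_im iE).1 hv.1)
      have c := in_vec (M := M) a ((mem_im iF).1 hv.2)
      by_cases e : ε σ = 1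
      · exact ⟨(mem_im iE).2 (tr (h1 σ e).1 b), (mem_im iF).2 (tr (h1 σ e).2 c)⟩
      · exact ⟨(mem_im iE).2 (tr (h2 σ e).2 c), (mem_im iF).2 (tr (h2 σ e).1 b)⟩
    rcases st with e | e | e
    · exact e
    · rw [e, finrank_top, Module.finrank_fintype_fun_eq_card, hn] at fin
      exact absurd (fin.trans_eq rE) (by norm_num)
    · refine absurd (si_of_rank iE (mul_of_le iF ?_) (rF.trans rE.symm)) hs
      exact (Submodule.eq_of_le_of_finrank_eq inf_le_left (e.trans rE.symm)).ge.trans inf_le_right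
  have cp : IsCompl (LinearMap.range E.mulVecLin) (LinearMap.range F.mulVecLin) := by
    refine ⟨disjoint_iff.2 dj, codisjoint_iff.2 (Submodule.eq_top_of_finrank_eq ?_)⟩
    have := Submodule.finrank_sup_add_finrank_inf_eq (LinearMap.range E.mulVecLin)
      (LinearMap.range F.mulVecLin)
    rw [dj, finrank_bot] at this
    rw [Module.finrank_fintype_fun_eq_card, hn]
    exact this.trans (congrArg₂ (· + ·) rE rF)
  have un : ∀ X Y : Matrix n n K, X * E = Y * E → X * F = Y * F → X = Y := fun X Y a b =>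
    mulVec_injective (funext fun v => by
      obtain ⟨_, ⟨x, rfl⟩, _, ⟨y, rfl⟩, rfl⟩ := Submodule.mem_sup.1
        (cp.sup_eq_top.symm ▸ Submodule.mem_top (x := v))
      simp [mulVec_add, a, b])
  obtain ⟨P, p1, p2, p3⟩ : ∃ P : Matrix n n K, P * E = E ∧ P * F = 0 ∧ E * P = P := by
    let p := (LinearMap.range E.mulVecLin).subtype ∘ₗ Submodule.projectionOnto _ _ cp
    have e : ∀ v, LinearMap.toMatrix' p *ᵥ v = p v := fun v => by
      rw [← toLin'_apply, toLin'_toMatrix']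
    refine ⟨LinearMap.toMatrix' p, mulVec_injective (funext fun v => ?_),
      mulVec_injective (funext fun v => ?_), mulVec_injective (funext fun v => ?_)⟩
    · rw [← mulVec_mulVec, e]
      exact congrArg Subtype.val (Submodule.projectionOnto_apply_left cp ⟨_, v, rfl⟩)
    · rw [← mulVec_mulVec, e, zero_mulVec]
      exact congrArg Subtype.val (Submodule.projectionOnto_apply_right cp ⟨_, v, rfl⟩)
    · rw [← mulVec_mulVec, e]
      exact (mem_im iE).1 (Subtype.prop _)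
  have s1 : Si P E := ⟨p1, p3⟩
  have s2 : Si (1 - P) F := si_of_rank iF (by rw [Matrix.sub_mul, p2, Matrix.one_mul, sub_zero])
    (by have := rank_compl s1.idem; have := s1.rank; omega)
  have key : ∀ X, Si X E → Si (1 - X) F → X = P := fun X a b => un _ _ (a.1.trans p1.symm) (by
    have := b.1
    rw [Matrix.sub_mul, Matrix.one_mul, sub_eq_self] at this
    rw [this, p2])
  refine ⟨P, s1.idem, s1.rank.trans rE, fun σ => ?_⟩
  have t1 := s1.ac (o := o) (M := M) (σ := σ)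
  have t2 := s2.ac (o := o) (M := M) (σ := σ)
  rw [ac_compl] at t2
  split_ifs with e
  · exact key _ (t1.trans (h1 σ e).1) (t2.trans (h1 σ e).2)
  · exact eq_sub_of_add_eq (eq_sub_iff_add_eq'.1 (key _ (t2.trans (h2 σ e).2) (by
      rw [sub_sub_cancel]; exact t1.trans (h2 σ e).1)).symm).symm.symm

theorem dich [Algebra.IsAlgebraic k K] (h : MD o M κ) (hn : Fintype.card n = 6)
    {ε : (K ≃ₐ[k] K) →* ℤˣ} (rE : E.rank = 3) (iE : E * E = E)
    (hE : ∀ σ, ε σ = 1 → Si (ac o M σ E) E)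
    (rk : ∀ U : Submodule K (n → K), (∀ σ, o σ = 1 → ∀ v ∈ U, (M σ).1 *ᵥ (σ ∘ v) ∈ U) →
      U = ⊥ ∨ U = ⊤ ∨ Module.finrank K U = 3) : ∃ P, Id3 o M 1 P ∨ Id3 o M ε P := by
  by_cases c : ∀ σ, Si (ac o M σ E) E
  · obtain ⟨P, p1, p2⟩ := fix_id h (Γ := ⊤) fun σ _ => c σ
    exact ⟨P, .inl ⟨p1.idem, p1.rank.trans rE, fun σ => by simpa using p2 σ trivial⟩⟩
  push Not at c
  obtain ⟨r, hr⟩ := c
  have er : ε r ≠ 1 := fun e => hr (hE r e)
  have k1 : ∀ σ, ε σ ≠ 1 → Si (ac o M σ E) (ac o M r E) := fun σ e => by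
    rw [← mul_inv_cancel_left r σ, ac_ac h]
    refine (hE _ (o_mul.2 ?_)).ac
    simp [er, e]
  refine (pair hn rE (ac_rank hn iE rE) iE (ac_idem iE) hr (fun σ e => ⟨hE σ e, ?_⟩)
    (fun σ e => ⟨k1 σ e, ?_⟩) rk).imp fun _ => .inr
  · rw [← ac_ac h]
    exact k1 _ (mt o_mul.1 (by simp [er, e]))
  · rw [← ac_ac h]
    exact hE _ (o_mul.2 (by simp [er, e]))

theorem lag (rk : RK) : LAG := by
  intro k K _ _ _ _ _ n _ _ hn o M κ h hs ε P _ _ ⟨hP, hL⟩
  obtain ⟨Q, hQ⟩ : ∃ Q : Matrix (Fin 3) n K, Q * P = 1 := by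
    have := LinearMap.finrank_range_add_finrank_ker P.mulVecLin
    rw [show Module.finrank K (LinearMap.range P.mulVecLin) = 3 from hP] at this
    obtain ⟨g, hg⟩ := P.mulVecLin.exists_leftInverse_of_injective
      (Submodule.finrank_eq_zero.1 (by simpa using this))
    refine ⟨LinearMap.toMatrix' g, mulVec_injective (funext fun v => ?_)⟩
    rw [← mulVec_mulVec, ← toLin'_apply, toLin'_toMatrix', one_mulVec]
    exact DFunLike.congr_fun hg v
  have i1 : P * Q * P = P := by rw [Matrix.mul_assoc, hQ, Matrix.mul_one]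
  have iE : P * Q * (P * Q) = P * Q := by rw [← Matrix.mul_assoc, i1]
  have rE : (P * Q).rank = 3 :=
    le_antisymm ((rank_mul_le_left P Q).trans hP.le) (hP.ge.trans ((congrArg rank i1).ge.trans
      (rank_mul_le_left (P * Q) P)))
  refine dich h hn rE iE (fun σ e => ?_) (rk k K n hn o M κ h hs)
  have r2 := ac_rank (o := o) (M := M) (σ := σ) hn iE rE
  by_cases a : o σ = 1
  · obtain ⟨b, hb⟩ : ∃ b : Matrix (Fin 3) (Fin 3) K, (M σ).1 * P.map σ = P * b := (hL σ e).1 a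
    refine (si_of_rank (ac_idem iE) ?_ (rE.trans r2.symm)).symm
    rw [ac_in a, cj, if_pos a, map_mul', ← Matrix.mul_assoc (M σ).1, hb]
    simp only [← Matrix.mul_assoc, i1]
  · refine si_of_rank iE ?_ (r2.trans rE.symm)
    have := (hL σ e).2 a
    rw [Matrix.mul_assoc] at this
    rw [ac_out a, cj, if_neg a, map_mul', transpose_mul, Matrix.sub_mul, Matrix.one_mul,
      ← Matrix.mul_assoc _ P, Matrix.mul_assoc _ _ P, Matrix.mul_assoc (M σ).1,
      Matrix.mul_assoc _ (P.map σ)ᵀ, this]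
    simp

theorem sym' (ix : IDX) (rk : RK) : SYM := by
  intro k K _ _ _ _ _ n _ _ hn o M κ h hs _
  obtain ⟨E, h1, h2, h3⟩ := ix k K n hn o M κ h
  refine dich h hn h3 h2 (fun σ e => ?_) (rk k K n hn o M κ h hs)
  rw [ac_in e, cj, if_pos e, ← h1 σ e, Units.mul_inv_cancel_right]
  exact ⟨h2, h2⟩

theorem sym (ix : IDX) (rk : RK) (_ : LAG) : SYM := sym' ix rk

end Vale.Agent.P011UF2B
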